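import Vale.Agent.P095.Infinite.Pieces
import Vale.Agent.P095.SI.LocalOn
import Vale.Agent.P095.SI.Pieces
import Vale.Agent.P095.SI.NU.Defs
import Vale.Agent.P095.Nonunital.LocallyFinite

/-!
# P095: large orthogonal almost central pieces in a simple algebra

Full commutators give orthogonal plateau pairs in `F(A)`.  An element of `F(A)` which is a unit for a
nonzero one has norm one against every element of the simple algebra `A`: a nonzero central class
kills no element of `A`.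
-/

open Filter Topology
open scoped BoundedContinuousFunction

namespace Vale.P095.NU.Pure

open Vale.P101 Vale.P095.SI Vale.P095.Nonunital

noncomputable section

attribute [local instance] CStarAlgebra.spectralOrder CStarAlgebra.spectralOrderedRing

/-- A plateau function is a two-sided multiple. -/
theorem exists_ramp_factor {E : Type*} [CStarAlgebra E] {z : E} (hz : 0 ≤ z) {r w : ℝ} (hr : 0 < r)
    (hw : 0 < w) : ∃ h : E, cfc (lonRamp r w) z = h * z ∧ cfc (lonRamp r w) z = z * h := by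
  have hc : Continuous fun t => lonRamp r w t / max t r :=
    (continuous_lonRamp r w).div (by fun_prop) fun t => (lt_max_of_lt_right hr).ne'
  have key : ∀ t, lonRamp r w t / max t r * t = lonRamp r w t := fun t => by
    rcases le_total t r with h | h
    · simp [lonRamp_eq_zero hw h]
    · rw [max_eq_left h, div_mul_cancel₀ _ (hr.trans_le h).ne']
  refine ⟨cfc (fun t => lonRamp r w t / max t r) z, ?_, ?_⟩
  · conv_rhs => arg 2; rw [← cfc_id' ℝ z hz.isSelfAdjoint]
    rw [← cfc_mul _ (fun t : ℝ => t) z hc.continuousOn continuousOn_id]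
    exact cfc_congr fun t _ => (key t).symm
  · conv_rhs => arg 1; rw [← cfc_id' ℝ z hz.isSelfAdjoint]
    rw [← cfc_mul (fun t : ℝ => t) _ z continuousOn_id hc.continuousOn]
    exact cfc_congr fun t _ => by rw [mul_comm, key]

/-- Sums of orthogonal positive contractions. -/
theorem sum_orth_norm_le {E : Type*} [CStarAlgebra E] {ι : Type*} (s : Finset ι) (f : ι → E)
    (hf : ∀ i, 0 ≤ f i ∧ ‖f i‖ ≤ 1) (ho : ∀ i j, i ≠ j → f i * f j = 0) :
    0 ≤ ∑ i ∈ s, f i ∧ ‖∑ i ∈ s, f i‖ ≤ 1 := by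
  classical
  induction s using Finset.induction_on with
  | empty => simp
  | insert i s hi ih =>
    rw [Finset.sum_insert hi]
    refine ⟨add_nonneg (hf i).1 ih.1, ?_⟩
    have h0 : f i * ∑ j ∈ s, f j = 0 := by
      rw [Finset.mul_sum]
      exact Finset.sum_eq_zero fun j hj => ho i j fun h => hi (h ▸ hj)
    exact (CStarAlgebra.norm_le_one_iff_of_nonneg _ (add_nonneg (hf i).1 ih.1)).2
      (add_le_one_of_orth (hf i).1 ih.1 (hf i).2 ih.2 h0)

/-- Two orthogonal elements, each a unit for `L` orthogonal plateau elements. -/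
theorem exists_groups {E : Type} [CStarAlgebra E] [Nontrivial E] {n L : ℕ} {hn : 0 < n}
    {s : Fin n → E} {v : E} (h : ZS.RWRel n hn s v) (hL : L + L ≤ n) :
    ∃ (f : Fin 2 → E) (q c : Fin 2 → Fin L → E),
      (∀ i, 0 ≤ f i ∧ ‖f i‖ ≤ 1) ∧ (∀ i j, i ≠ j → f i * f j = 0) ∧
      (∀ i p, 0 ≤ q i p ∧ ‖q i p‖ ≤ 1 ∧ c i p ≠ 0 ∧ q i p * c i p = c i p ∧ f i * q i p = q i p) ∧
      ∀ i p p', p ≠ p' → q i p * q i p' = 0 := by
  classical
  obtain ⟨b, _, hp, horth⟩ := Infinite.exists_orth_pairs h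
  have hb : ∀ k, 0 ≤ b k ∧ ‖b k‖ = 1 := fun k => ⟨Dicho.isPos_iff.1 (hp k).pos_b, (hp k).norm_b⟩
  let R : ℝ → ℝ → Fin n → E := fun r w k => cfc (lonRamp r w) (b k)
  have hR1 : ∀ r w k, 0 ≤ R r w k ∧ ‖R r w k‖ ≤ 1 := fun r w k => by
    refine ⟨cfc_nonneg fun t _ => lonRamp_nonneg _ _ t, norm_cfc_le zero_le_one fun t _ => ?_⟩
    rw [Real.norm_eq_abs, abs_of_nonneg (lonRamp_nonneg _ _ _)]
    exact lonRamp_le_one _ _ _
  have hRo : ∀ r w r' w', 0 < r → 0 < w → 0 < r' → 0 < w' → ∀ k k', k ≠ k' →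
      R r w k * R r' w' k' = 0 := by
    intro r w r' w' hr hw hr' hw' k k' hk
    obtain ⟨x, hx, -⟩ := exists_ramp_factor (hb k).1 hr hw
    obtain ⟨y, -, hy⟩ := exists_ramp_factor (hb k').1 hr' hw'
    simp only [R]
    rw [hx, hy, mul_assoc, ← mul_assoc (b k), (horth k k' hk).1, zero_mul, mul_zero]
  have hunit : ∀ r w r' w', 0 < w → 0 < w' → r + w ≤ r' → ∀ k,
      R r w k * R r' w' k = R r' w' k := by
    intro r w r' w' hw hw' hrr k
    simp only [R]
    rw [← cfc_mul _ _ (b k) (continuous_lonRamp r w).continuousOn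
      (continuous_lonRamp r' w').continuousOn]
    refine cfc_congr fun t _ => ?_
    rcases le_total t r' with h1 | h1
    · rw [lonRamp_eq_zero hw' h1, mul_zero]
    · rw [lonRamp_eq_one hw (hrr.trans h1), one_mul]
  let e : Fin 2 → Fin L → Fin n := fun i p =>
    Fin.castLE hL (if i = 0 then Fin.castAdd L p else Fin.natAdd L p)
  have hval : ∀ i p, (e i p).1 = p.1 + L * (i : Fin 2).1 := fun i p => by
    fin_cases i <;> simp [e, add_comm]
  have he : ∀ i p j p', e i p = e j p' → i = j ∧ p = p' := by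
    intro i p j p' hh
    have h1 := congrArg Fin.val hh
    rw [hval, hval] at h1
    have h2 := p.2
    have h3 := p'.2
    have h4 : i = j := by
      fin_cases i <;> fin_cases j <;> simp at h1 ⊢ <;> omega
    subst h4
    exact ⟨rfl, Fin.ext (by omega)⟩
  refine ⟨fun i => ∑ p, R (1 / 8) (1 / 8) (e i p), fun i p => R (1 / 4) (1 / 4) (e i p),
    fun i p => R (1 / 2) (1 / 4) (e i p),
    fun i => sum_orth_norm_le _ _ (fun p => hR1 _ _ _) fun p p' hpp =>
      hRo _ _ _ _ (by norm_num) (by norm_num) (by norm_num) (by norm_num) _ _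
        fun hh => hpp (he _ _ _ _ hh).2,
    fun i j hij => ?_, fun i p => ⟨(hR1 _ _ _).1, (hR1 _ _ _).2, ?_, ?_, ?_⟩,
    fun i p p' hpp => hRo _ _ _ _ (by norm_num) (by norm_num) (by norm_num) (by norm_num) _ _
        fun hh => hpp (he _ _ _ _ hh).2⟩
  · rw [Finset.sum_mul_sum]
    exact Finset.sum_eq_zero fun p _ => Finset.sum_eq_zero fun p' _ =>
      hRo _ _ _ _ (by norm_num) (by norm_num) (by norm_num) (by norm_num) _ _
        fun hh => hij (he _ _ _ _ hh).1
  · intro h0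
    have := lon_norm_ramp (hb (e i p)).1 (r := 1 / 2) (w := 1 / 4) (by norm_num)
      (by rw [(hb (e i p)).2]; norm_num)
    simp only [R] at h0
    rw [h0, norm_zero] at this
    exact zero_ne_one this
  · exact hunit _ _ _ _ (by norm_num) (by norm_num) (by norm_num) _
  · dsimp only
    rw [Finset.sum_mul, Finset.sum_eq_single p]
    · exact hunit _ _ _ _ (by norm_num) (by norm_num) (by norm_num) _
    · exact fun p' _ hpp => hRo _ _ _ _ (by norm_num) (by norm_num) (by norm_num) (by norm_num) _ _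
        fun hh => hpp (he _ _ _ _ hh).2
    · simp

/-! ### Representatives -/

variable {A : Type} [NonUnitalCStarAlgebra A] (ω : Ultrafilter ℕ)

variable (A) in
/-- The bounded sequences with central class. -/
def Seqs : StarSubalgebra ℂ (ℕ →ᵇ Unitization ℂ A) :=
  (Central (Unitization ℂ A) ω).comap (clsStar ω)

variable (A) in
/-- The class in `F(A)`. -/
def pr : Seqs A ω →⋆ₐ[ℂ] FA A ω :=
  (relProj (Unitization ℂ A) ω (inrSet A)).comp
    (((clsStar ω).comp (Seqs A ω).subtype).codRestrict _ fun f => f.2)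

variable {ω}

/-- Representatives of scaled positive contractions. -/
theorem exists_scaled {z : FA A ω} (hz : 0 ≤ z) (hz1 : ‖z‖ ≤ 1) {r : ℝ} (hr0 : 0 ≤ r)
    (hr : r < 1) :
    ∃ Z : Seqs A ω, (∀ n, IsPos (Z.1 n) ∧ ‖Z.1 n‖ ≤ 1) ∧ pr A ω Z = r • z := by
  obtain ⟨y, hy⟩ := CStarAlgebra.nonneg_iff_eq_star_mul_self.1 hz
  have hy1 : ‖y‖ ≤ 1 := by
    rw [hy, CStarRing.norm_star_mul_self] at hz1
    nlinarith [norm_nonneg y]
  set c : ℝ := Real.sqrt r with hc
  have hc1 : c < 1 := by rw [hc, Real.sqrt_lt' one_pos]; simpa using hr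
  have hlt : ‖(c : ℂ) • y‖ < 1 := by
    rw [norm_smul, Complex.norm_real, Real.norm_of_nonneg (Real.sqrt_nonneg r)]
    exact (mul_le_of_le_one_right (Real.sqrt_nonneg r) hy1).trans_lt hc1
  obtain ⟨x, hx, hxn⟩ := quot_exists_norm_lt (annIdeal (Unitization ℂ A) ω (inrSet A)).toIdeal
    ((c : ℂ) • y : FA A ω) (show (0 : ℝ) < (1 - ‖(c : ℂ) • y‖) / 2 by linarith)
  obtain ⟨f, hf, hfn⟩ := quot_exists_norm_lt (NullSeq (Unitization ℂ A) ω)
    (x : Ultrapower (Unitization ℂ A) ω) (show (0 : ℝ) < (1 - ‖(c : ℂ) • y‖) / 2 by linarith)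
  have hf' : cls ω f = (x : Ultrapower (Unitization ℂ A) ω) := hf
  let Y : Seqs A ω := ⟨f, show cls ω f ∈ Central (Unitization ℂ A) ω from hf' ▸ x.2⟩
  have hY : pr A ω Y = (c : ℂ) • y := by
    show relProj _ _ _ _ = _
    exact (congrArg (relProj (Unitization ℂ A) ω (inrSet A)) (Subtype.ext hf')).trans hx
  refine ⟨star Y * Y, fun n => ⟨⟨Y.1 n, rfl⟩, ?_⟩, ?_⟩
  · have h1 : ‖(x : Ultrapower (Unitization ℂ A) ω)‖ = ‖x‖ := rfl
    have h2 : ‖x‖ < ‖(c : ℂ) • y‖ + (1 - ‖(c : ℂ) • y‖) / 2 := hxn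
    have h3 : ‖f n‖ ≤ 1 := by linarith [f.norm_coe_le_norm n]
    show ‖star (f n) * f n‖ ≤ 1
    rw [CStarRing.norm_star_mul_self]
    exact mul_le_one₀ h3 (norm_nonneg _) h3
  · rw [map_mul, map_star, hY, star_smul, Complex.star_def, Complex.conj_ofReal,
      smul_mul_smul_comm, ← Complex.ofReal_mul, Real.mul_self_sqrt hr0, ← hy, Complex.coe_smul]

/-- The norm in `F(A)` bounds the products with elements of `A`. -/
theorem eventually_mul_le (f : Seqs A ω) (a : A) {δ : ℝ} (hδ : 0 < δ) :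
    ∀ᶠ n in (ω : Filter ℕ), ‖f.1 n * (a : Unitization ℂ A)‖ ≤
      ‖pr A ω f‖ * ‖(a : Unitization ℂ A)‖ + δ := by
  set b : Unitization ℂ A := (a : Unitization ℂ A)
  obtain ⟨r, hr, hrn⟩ := quot_exists_norm_lt (annIdeal (Unitization ℂ A) ω (inrSet A)).toIdeal
    (pr A ω f) (show (0 : ℝ) < δ / (2 * (‖b‖ + 1)) by positivity)
  have hann : (⟨cls ω f.1, f.2⟩ : Central (Unitization ℂ A) ω) - r ∈
      (annIdeal (Unitization ℂ A) ω (inrSet A)).toIdeal := by
    rw [← relProj_eq_zero, map_sub, sub_eq_zero]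
    exact hr.symm
  have h0 := ((mem_annIdeal _ ω _).1 hann b ⟨a, rfl⟩).1
  rw [show (((⟨cls ω f.1, f.2⟩ : Central (Unitization ℂ A) ω) - r :
      Central (Unitization ℂ A) ω) : Ultrapower (Unitization ℂ A) ω) =
      cls ω f.1 - (r : Ultrapower (Unitization ℂ A) ω) from rfl,
    sub_mul, sub_eq_zero, ← map_mul] at h0
  have hlim : limNorm ω (f.1 * BoundedContinuousFunction.const ℕ b) <
      ‖pr A ω f‖ * ‖b‖ + δ := by
    rw [← norm_cls, h0]
    refine (norm_mul_le _ _).trans_lt ?_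
    have h1 : ‖constSeq ω b‖ ≤ ‖b‖ :=
      (quot_norm_mk_le (NullSeq (Unitization ℂ A) ω) _).trans
        (BoundedContinuousFunction.norm_const_le b)
    have h2 : ‖(r : Ultrapower (Unitization ℂ A) ω)‖ ≤ ‖pr A ω f‖ + δ / (2 * (‖b‖ + 1)) := hrn.le
    refine lt_of_le_of_lt (mul_le_mul h2 h1 (norm_nonneg _) (by positivity)) ?_
    rw [add_mul]
    have h3 : δ / (2 * (‖b‖ + 1)) * ‖b‖ < δ := by
      rw [div_mul_eq_mul_div, div_lt_iff₀ (by positivity)]
      nlinarith [norm_nonneg b]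
    linarith
  filter_upwards [(tendsto_limNorm ω _).eventually (eventually_lt_nhds hlim)] with n hn
  exact le_of_lt hn

/-- Representatives almost commute with every element. -/
theorem eventually_comm_le (f : Seqs A ω) (b : Unitization ℂ A) {δ : ℝ} (hδ : 0 < δ) :
    ∀ᶠ n in (ω : Filter ℕ), ‖f.1 n * b - b * f.1 n‖ ≤ δ := by
  have h := tendsto_of_commute_cls ω (f := f.1) (g := BoundedContinuousFunction.const ℕ b)
    ((mem_central ω).1 f.2 b).symm
  exact (h.eventually (eventually_lt_nhds hδ)).mono fun n hn => le_of_lt hn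

theorem constSeq_mul {B : Type*} [CStarAlgebra B] (x y : B) :
    constSeq ω (x * y) = constSeq ω x * constSeq ω y := by
  simp only [constSeq, ← map_mul]
  rfl

theorem constSeq_add {B : Type*} [CStarAlgebra B] (x y : B) :
    constSeq ω (x + y) = constSeq ω x + constSeq ω y := by
  simp only [constSeq, ← map_add]
  rfl

theorem constSeq_neg {B : Type*} [CStarAlgebra B] (x : B) :
    constSeq ω (-x) = -constSeq ω x := by
  simp only [constSeq, ← map_neg]
  rfl

theorem constSeq_zero {B : Type*} [CStarAlgebra B] : constSeq ω (0 : B) = 0 :=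
  map_zero (cls (A := B) ω)

theorem constSeq_sub_smul {B : Type*} [CStarAlgebra B] (x : B) (c : ℂ) :
    constSeq ω (x - c • 1) = constSeq ω x - c • 1 := by
  rw [constSeq, show BoundedContinuousFunction.const ℕ (x - c • (1 : B)) =
    BoundedContinuousFunction.const ℕ x - c • 1 from rfl, map_sub, map_smul, map_one]

/-- A nonzero class kills no element of a simple algebra. -/
theorem eq_zero_of_mul_eq_zero (hs : Vale.P095.SI.NU.IsTopSimple A)
    {R : Central (Unitization ℂ A) ω} (hR : relProj (Unitization ℂ A) ω (inrSet A) R ≠ 0) {x : A}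
    (hx : (R : Ultrapower (Unitization ℂ A) ω) * constSeq ω (x : Unitization ℂ A) = 0) : x = 0 := by
  let S : Set A := {y : A |
    (R : Ultrapower (Unitization ℂ A) ω) * constSeq ω (y : Unitization ℂ A) = 0}
  have hRk : ∀ b, constSeq ω b * (R : Ultrapower (Unitization ℂ A) ω) =
      (R : Ultrapower (Unitization ℂ A) ω) * constSeq ω b := fun b => ((mem_central ω).1 R.2 b).eq
  have h0 : (0 : A) ∈ S := by
    show _ = _
    rw [Unitization.inr_zero, constSeq_zero, mul_zero]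
  let J : TwoSidedIdeal A := TwoSidedIdeal.mk' S h0
    (fun {y z} (hy : _ = _) (hz : _ = _) => by
      show _ = _
      rw [Unitization.inr_add, constSeq_add, mul_add, hy, hz, add_zero])
    (fun {y} (hy : _ = _) => by
      show _ = _
      rw [Unitization.inr_neg, constSeq_neg, mul_neg, hy, neg_zero])
    (fun {y z} (hz : _ = _) => by
      show _ = _
      rw [Unitization.inr_mul, constSeq_mul, ← mul_assoc, ← hRk, mul_assoc, hz, mul_zero])
    (fun {y z} (hy : _ = _) => by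
      show _ = _
      rw [Unitization.inr_mul, constSeq_mul, ← mul_assoc, hy, zero_mul])
  have hJ : ∀ y : A, y ∈ J ↔ y ∈ S := fun y => TwoSidedIdeal.mem_mk' _ _ _ _ _ _ y
  have hcl : IsClosed (J : Set A) := by
    rw [show (J : Set A) = S from Set.ext hJ]
    exact isClosed_eq (continuous_const.mul (continuous_constSeq.comp
      Unitization.isometry_inr.continuous)) continuous_const
  rcases hs J hcl with h | h
  · have : x ∈ J := (hJ x).2 hx
    rwa [h, TwoSidedIdeal.mem_bot] at this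
  · refine absurd ((relProj_eq_zero _ ω _).2 ((mem_annIdeal _ ω _).2 ?_)) hR
    rintro _ ⟨y, rfl⟩
    rw [← Unitization.inr_star]
    exact ⟨(hJ y).1 (by rw [h]; trivial), (hJ _).1 (by rw [h]; trivial)⟩

/-- Plateau elements of the ideal just below the norm of `d* d`. -/
theorem exists_plateau (a : A) (ha : (a : Unitization ℂ A) ≠ 0) {e : ℝ} (he : 0 < e)
    (he1 : e ≤ 1 / 4) :
    ∃ (u : Unitization ℂ A) (w : A), w ≠ 0 ∧ u * (w : Unitization ℂ A) = (w : Unitization ℂ A) ∧
      ‖(star (a : Unitization ℂ A) * (a : Unitization ℂ A) -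
        ((‖(a : Unitization ℂ A)‖ * ‖(a : Unitization ℂ A)‖ : ℝ) : ℂ) • 1) * u‖ ≤
        2 * e * (‖(a : Unitization ℂ A)‖ * ‖(a : Unitization ℂ A)‖) := by
  set d : Unitization ℂ A := (a : Unitization ℂ A) with hd
  set N : ℝ := ‖d‖ * ‖d‖ with hN
  have hN0 : 0 < N := by have := norm_pos_iff.2 ha; positivity
  have hNn : ‖star d * d‖ = N := CStarRing.norm_star_mul_self
  have hz : 0 ≤ star d * d := star_mul_self_nonneg d
  set u : Unitization ℂ A := cfc (lonRamp (N * (1 - 2 * e)) (N * e)) (star d * d) with hu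
  set w : Unitization ℂ A := cfc (lonRamp (N * (1 - e)) (N * e)) (star d * d) with hw
  obtain ⟨x, hx, -⟩ := exists_ramp_factor hz (r := N * (1 - e)) (w := N * e)
    (mul_pos hN0 (by linarith)) (mul_pos hN0 he)
  obtain ⟨y, hy⟩ : w ∈ inrSet A := by
    have h0 : w.fst = 0 := by
      rw [hw, hx, ← mul_assoc, Unitization.fst_mul, hd, Unitization.fst_inr, mul_zero]
    exact ⟨w.snd, Unitization.ext (by simp [h0]) (by simp)⟩
  refine ⟨u, y, fun h => ?_, ?_, ?_⟩
  · have h2 : ‖w‖ = 1 := lon_norm_ramp hz (mul_pos hN0 he) (by rw [hNn]; linarith)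
    rw [← hy, h, Unitization.inr_zero, norm_zero] at h2
    exact zero_ne_one h2
  · rw [hy, hu, hw, ← cfc_mul _ _ _ (continuous_lonRamp _ _).continuousOn
      (continuous_lonRamp _ _).continuousOn]
    refine cfc_congr fun t _ => ?_
    rcases le_total t (N * (1 - e)) with h | h
    · rw [lonRamp_eq_zero (mul_pos hN0 he) h, mul_zero]
    · rw [lonRamp_eq_one (mul_pos hN0 he) (by nlinarith), one_mul]
  · have e1 : (star d * d - (N : ℂ) • 1) * u =
        cfc (fun t => (t - N) * lonRamp (N * (1 - 2 * e)) (N * e) t) (star d * d) := by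
      rw [cfc_mul (fun t => t - N) _ _ (by fun_prop) (continuous_lonRamp _ _).continuousOn,
        cfc_sub (fun t => t) (fun _ => N) _ (by fun_prop) (by fun_prop), cfc_id' ℝ _ hz.isSelfAdjoint,
        cfc_const N _ hz.isSelfAdjoint, Algebra.algebraMap_eq_smul_one, Complex.coe_smul]
    rw [e1]
    refine norm_cfc_le (by positivity) fun t ht => ?_
    have h2 : t ≤ N := ((le_abs_self t).trans
      (Real.norm_eq_abs t ▸ spectrum.norm_le_norm_of_mem ht)).trans_eq hNn
    rw [Real.norm_eq_abs, abs_mul, abs_of_nonneg (lonRamp_nonneg _ _ _)]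
    rcases le_total t (N * (1 - 2 * e)) with h | h
    · rw [lonRamp_eq_zero (mul_pos hN0 he) h, mul_zero]
      positivity
    · refine (mul_le_mul_of_nonneg_left (lonRamp_le_one _ _ _) (abs_nonneg _)).trans ?_
      rw [mul_one, abs_le]
      constructor <;> nlinarith

/-- The norm estimate behind `eventually_mul_ge`. -/
theorem le_of_plateau {U : Type*} [CStarAlgebra U] {D Ds Q X P : U} {r N n e : ℝ} (hr : 0 ≤ r)
    (hn : 0 < n) (hN : N = n * n) (hD : ‖Ds‖ ≤ n) (hX : X ≠ 0) (hPn : ‖P‖ ≤ 2 * e * N)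
    (hP : Ds * (D * X) - (N : ℂ) • X = P * X) (hQ : r • (D * X) = Q * D * X) :
    r * n * (1 - 2 * e) ≤ ‖Q * D‖ := by
  have hX0 : 0 < ‖X‖ := norm_pos_iff.2 hX
  have h1 : N * (1 - 2 * e) * ‖X‖ ≤ ‖Ds * (D * X)‖ := by
    have a1 := (congrArg norm hP).le.trans
      ((norm_mul_le _ _).trans (mul_le_mul_of_nonneg_right hPn (norm_nonneg X)))
    have a2 := norm_le_insert (Ds * (D * X)) ((N : ℂ) • X)
    rw [norm_smul, Complex.norm_real,
      Real.norm_of_nonneg (by rw [hN]; positivity : (0 : ℝ) ≤ N)] at a2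
    linarith
  have h2 : r * ‖Ds * (D * X)‖ ≤ n * (‖Q * D‖ * ‖X‖) := by
    rw [← Real.norm_of_nonneg hr, ← norm_smul, ← mul_smul_comm, hQ]
    exact (norm_mul_le _ _).trans (mul_le_mul hD (norm_mul_le _ _) (norm_nonneg _) hn.le)
  have h3 := (mul_le_mul_of_nonneg_left h1 hr).trans h2
  rw [hN] at h3
  have h4 : n * (‖X‖ * (r * n * (1 - 2 * e))) ≤ n * (‖X‖ * ‖Q * D‖) := by linarith
  exact le_of_mul_le_mul_left (le_of_mul_le_mul_left h4 hn) hX0

/-- A unit for a nonzero element of `F(A)` has full norm against every element of `A`. -/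
theorem eventually_mul_ge (hs : Vale.P095.SI.NU.IsTopSimple A) (Q : Seqs A ω) {c : FA A ω}
    (hc : c ≠ 0) {r : ℝ} (hr : 0 ≤ r) (hQ : pr A ω Q * c = r • c) (a : A) {η : ℝ} (hη : 0 < η) :
    ∀ᶠ n in (ω : Filter ℕ), r * ‖(a : Unitization ℂ A)‖ - η ≤
      ‖Q.1 n * (a : Unitization ℂ A)‖ := by
  set d : Unitization ℂ A := (a : Unitization ℂ A) with hddef
  rcases eq_or_ne d 0 with hd | hd
  · exact Eventually.of_forall fun n => by rw [hd]; simp; linarith
  obtain ⟨R, rfl⟩ := relProj_surjective (Unitization ℂ A) ω (inrSet A) c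
  have hd0 : 0 < ‖d‖ := norm_pos_iff.2 hd
  obtain ⟨e, he0, he1, heη⟩ : ∃ e : ℝ, 0 < e ∧ e ≤ 1 / 4 ∧ r * ‖d‖ * (2 * e) ≤ η / 2 := by
    have hp : 0 < min (1 / 4 : ℝ) (η / (4 * (r * ‖d‖ + 1))) := lt_min (by norm_num) (by positivity)
    refine ⟨_, hp, min_le_left _ _, ?_⟩
    have h1 := (le_div_iff₀ (by positivity)).1
      (min_le_right (1 / 4 : ℝ) (η / (4 * (r * ‖d‖ + 1))))
    nlinarith
  obtain ⟨u, w, hw, huw, hu⟩ := exists_plateau a hd he0 he1
  have hann : (Subtype.val (⟨cls ω Q.1, Q.2⟩ * R - (r : ℂ) • R : Central (Unitization ℂ A) ω) :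
      Ultrapower (Unitization ℂ A) ω) * constSeq ω ((a * w : A) : Unitization ℂ A) = 0 := by
    have h0 : relProj (Unitization ℂ A) ω (inrSet A)
        (⟨cls ω Q.1, Q.2⟩ * R - (r : ℂ) • R) = 0 := by
      rw [map_sub, map_mul, map_smul, Complex.coe_smul, sub_eq_zero]
      exact hQ
    exact ((mem_annIdeal _ ω _).1 ((relProj_eq_zero _ ω _).1 h0) _ ⟨a * w, rfl⟩).1
  change (cls ω Q.1 * (R : Ultrapower (Unitization ℂ A) ω) -
    (r : ℂ) • (R : Ultrapower (Unitization ℂ A) ω)) * _ = 0 at hann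
  rw [sub_mul, sub_eq_zero, smul_mul_assoc, Complex.coe_smul, Unitization.inr_mul,
    constSeq_mul] at hann
  have hRk : ∀ b, constSeq ω b * (R : Ultrapower (Unitization ℂ A) ω) =
      (R : Ultrapower (Unitization ℂ A) ω) * constSeq ω b := fun b => ((mem_central ω).1 R.2 b).eq
  have hX : (R : Ultrapower (Unitization ℂ A) ω) * constSeq ω (w : Unitization ℂ A) ≠ 0 :=
    fun h => hw (eq_zero_of_mul_eq_zero hs hc h)
  have hkn : ∀ b : Unitization ℂ A, ‖constSeq ω b‖ ≤ ‖b‖ := fun b =>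
    (quot_norm_mk_le (NullSeq (Unitization ℂ A) ω) _).trans (BoundedContinuousFunction.norm_const_le b)
  have hM := le_of_plateau (D := constSeq ω d) (Ds := constSeq ω (star d)) (Q := cls ω Q.1)
    (X := (R : Ultrapower (Unitization ℂ A) ω) * constSeq ω (w : Unitization ℂ A))
    (P := constSeq ω ((star d * d - ((‖d‖ * ‖d‖ : ℝ) : ℂ) • 1) * u)) hr hd0 rfl
    ((hkn _).trans (norm_star d).le) hX ((hkn _).trans hu) ?_ ?_
  · have hlim : Tendsto (fun n => ‖Q.1 n * d‖) ω (𝓝 ‖cls ω Q.1 * constSeq ω d‖) := by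
      have h := tendsto_limNorm ω (Q.1 * BoundedContinuousFunction.const ℕ d)
      rw [← norm_cls, map_mul] at h
      exact h
    filter_upwards [hlim.eventually (eventually_gt_nhds
      (show r * ‖d‖ - η < ‖cls ω Q.1 * constSeq ω d‖ by nlinarith))] with n hn
    exact hn.le
  · have e1 : constSeq ω u * ((R : Ultrapower (Unitization ℂ A) ω) *
        constSeq ω (w : Unitization ℂ A)) =
        (R : Ultrapower (Unitization ℂ A) ω) * constSeq ω (w : Unitization ℂ A) := by
      rw [← mul_assoc, hRk, mul_assoc, ← constSeq_mul, huw]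
    rw [constSeq_mul, mul_assoc (constSeq ω (star d * d - _)), e1, constSeq_sub_smul, sub_mul,
      constSeq_mul, mul_assoc, smul_mul_assoc, one_mul]
  · rw [← mul_assoc (constSeq ω d), hRk, mul_assoc, ← hann]
    simp only [mul_assoc]
    rw [← mul_assoc (constSeq ω d) (R : Ultrapower (Unitization ℂ A) ω), hRk, mul_assoc]

/-- `F(A)` is nonzero. -/
theorem nontrivial_FA [Nontrivial A] : Nontrivial (FA A ω) := by
  refine ⟨⟨1, 0, fun h => ?_⟩⟩
  rw [← map_one (relProj (Unitization ℂ A) ω (inrSet A))] at h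
  obtain ⟨a, ha⟩ := exists_ne (0 : A)
  have h1 := ((mem_annIdeal _ ω _).1 ((relProj_eq_zero _ ω _).1 h) (a : Unitization ℂ A) ⟨a, rfl⟩).1
  change (1 : Ultrapower (Unitization ℂ A) ω) * constSeq ω (a : Unitization ℂ A) = 0 at h1
  rw [one_mul, ← norm_eq_zero, norm_cls] at h1
  have h2 := tendsto_nhds_unique (tendsto_limNorm ω _)
    (show Tendsto (fun n : ℕ => ‖BoundedContinuousFunction.const ℕ (a : Unitization ℂ A) n‖) ω
      (𝓝 ‖(a : Unitization ℂ A)‖) by simp)
  rw [h1, Unitization.norm_inr] at h2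
  exact ha (norm_eq_zero.1 h2.symm)

/-- Two almost orthogonal elements, each almost a unit for `L` large almost orthogonal ones. -/
theorem exists_pieces [Nontrivial A] (hs : Vale.P095.SI.NU.IsTopSimple A)
    (hcopy : CopyProp (FA A ω)) (hfull : CommutatorsFull A ω) (L : ℕ) (D : Finset A) {η : ℝ}
    (hη : 0 < η) :
    ∃ (f : Fin 2 → Unitization ℂ A) (q : Fin 2 → Fin L → Unitization ℂ A),
      (∀ i, IsPos (f i) ∧ ‖f i‖ ≤ 1) ∧ (∀ i p, IsPos (q i p) ∧ ‖q i p‖ ≤ 1) ∧
      ∀ a ∈ D, ((∀ i, ‖f i * (a : Unitization ℂ A) - (a : Unitization ℂ A) * f i‖ ≤ η) ∧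
          ∀ i j, i ≠ j → ‖f i * f j * (a : Unitization ℂ A)‖ ≤ η) ∧
        ∀ i p, ((‖q i p * (a : Unitization ℂ A) - (a : Unitization ℂ A) * q i p‖ ≤ η ∧
            ‖(f i * q i p - q i p) * (a : Unitization ℂ A)‖ ≤ η) ∧
          1 / 2 * ‖(a : Unitization ℂ A)‖ - η ≤ ‖q i p * (a : Unitization ℂ A)‖) ∧
          ∀ p', p ≠ p' → ‖q i p * q i p' * (a : Unitization ℂ A)‖ ≤ η := by
  classical
  have : Nontrivial (FA A ω) := nontrivial_FA
  obtain ⟨s, v, hsv⟩ := ZS.treeStmt _ hcopy (full_of_commutatorsFull hfull) (L + L + 1) (by omega)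
  obtain ⟨F, Qe, C, hF, hFo, hQ, hQo⟩ := exists_groups hsv (L := L)
    (Nat.lt_two_pow_self.le.trans (Nat.pow_le_pow_right two_pos (Nat.le_succ _)))
  set K : ℝ := 1 + ∑ a ∈ D, ‖(a : Unitization ℂ A)‖ with hKdef
  have hK1 : 1 ≤ K := le_add_of_nonneg_right (Finset.sum_nonneg fun a _ => norm_nonneg _)
  have hK : ∀ a ∈ D, ‖(a : Unitization ℂ A)‖ ≤ K := fun a ha => by
    have h := Finset.single_le_sum (f := fun a : A => ‖(a : Unitization ℂ A)‖)
      (fun a _ => norm_nonneg _) ha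
    linarith
  obtain ⟨r, hr0, hr1, hrK⟩ : ∃ r : ℝ, 1 / 2 ≤ r ∧ r < 1 ∧ (1 - r) * K ≤ η / 2 :=
    ⟨1 - min (1 / 2) (η / (2 * K)), by linarith [min_le_left (1 / 2 : ℝ) (η / (2 * K))],
      by linarith [lt_min (show (0 : ℝ) < 1 / 2 by norm_num) (show 0 < η / (2 * K) by positivity)],
      by
        have h := (le_div_iff₀ (by positivity)).1 (min_le_right (1 / 2 : ℝ) (η / (2 * K)))
        linarith⟩
  choose f hfp hf using fun i => exists_scaled (hF i).1 (hF i).2 (r := r) (by linarith) hr1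
  choose q hqp hq using fun i p =>
    exists_scaled (hQ i p).1 (hQ i p).2.1 (r := r) (by linarith) hr1
  have hsmall : ∀ (W : Seqs A ω) (a : A), a ∈ D → ‖pr A ω W‖ ≤ 1 - r →
      ∀ᶠ n in (ω : Filter ℕ), ‖W.1 n * (a : Unitization ℂ A)‖ ≤ η := fun W a ha h1 =>
    (eventually_mul_le W a (half_pos hη)).mono fun n hn => hn.trans (by
      nlinarith [mul_le_mul h1 (hK a ha) (norm_nonneg _) (by linarith)])
  have hev : ∀ a ∈ D, ∀ᶠ n in (ω : Filter ℕ),
      ((∀ i, ‖(f i).1 n * (a : Unitization ℂ A) - (a : Unitization ℂ A) * (f i).1 n‖ ≤ η) ∧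
          ∀ i j, i ≠ j → ‖(f i).1 n * (f j).1 n * (a : Unitization ℂ A)‖ ≤ η) ∧
        ∀ i p, ((‖(q i p).1 n * (a : Unitization ℂ A) - (a : Unitization ℂ A) * (q i p).1 n‖ ≤ η ∧
            ‖((f i).1 n * (q i p).1 n - (q i p).1 n) * (a : Unitization ℂ A)‖ ≤ η) ∧
          1 / 2 * ‖(a : Unitization ℂ A)‖ - η ≤ ‖(q i p).1 n * (a : Unitization ℂ A)‖) ∧
          ∀ p', p ≠ p' → ‖(q i p).1 n * (q i p').1 n * (a : Unitization ℂ A)‖ ≤ η := fun a ha => by
    simp only [Filter.eventually_and, Filter.eventually_all]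
    refine ⟨⟨fun i => eventually_comm_le (f i) _ hη, fun i j hij =>
        hsmall (f i * f j) a ha ?_⟩,
      fun i p => ⟨⟨⟨eventually_comm_le (q i p) _ hη, hsmall (f i * q i p - q i p) a ha ?_⟩, ?_⟩,
        fun p' hpp => hsmall (q i p * q i p') a ha ?_⟩⟩
    · rw [map_mul, hf, hf, smul_mul_smul_comm, hFo i j hij, smul_zero, norm_zero]
      linarith
    · rw [map_sub, map_mul, hf, hq, smul_mul_smul_comm, (hQ i p).2.2.2.2, ← sub_smul, norm_smul,
        Real.norm_of_nonpos (by nlinarith)]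
      refine (mul_le_mul le_rfl (hQ i p).2.1 (norm_nonneg _) (by nlinarith)).trans ?_
      nlinarith
    · refine (eventually_mul_ge hs (q i p) (hQ i p).2.2.1 (by linarith : (0 : ℝ) ≤ r)
        (by rw [hq, smul_mul_assoc, (hQ i p).2.2.2.1]) a hη).mono fun n hn => ?_
      nlinarith [mul_le_mul_of_nonneg_right hr0 (norm_nonneg (a : Unitization ℂ A))]
    · rw [map_mul, hq, hq, smul_mul_smul_comm, hQo i p p' hpp, smul_zero, norm_zero]
      linarith
  obtain ⟨n, hn⟩ := ((Filter.eventually_all_finset D).2 hev).exists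
  exact ⟨fun i => (f i).1 n, fun i p => (q i p).1 n, fun i => hfp i n, fun i p => hqp i p n, hn⟩

end

end Vale.P095.NU.Pure
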