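import Vale.Agent.P095.SI.Equivariant
import Vale.Agent.P095.SI.NU.Instances

/-!
# P095: estimates for averages of translates, tested strictly

* averages of families which are orthogonal off the diagonal, tested on one element;
* the two products `s t i` of almost isometries;
* the subgroup of elements fixing asymptotically central elements, with finite test data.
-/

namespace Vale.P095.NU.Pure

open Vale.P095.SI Vale.P095.Nonunital

noncomputable section

section Estimates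

variable {B : Type*} [CStarAlgebra B]

/-- The norm of an average. -/
theorem avg_norm_le {ι : Type*} {F : Finset ι} (hF : F.Nonempty) (w : ι → B) {δ R : ℝ}
    (hδ : 0 ≤ δ) (hd : ∀ g ∈ F, ‖star (w g) * w g‖ ≤ R)
    (ho : ∀ g ∈ F, ∀ h ∈ F, g ≠ h → ‖star (w g) * w h‖ ≤ δ) :
    ‖avgSum F w‖ ^ 2 ≤ R + F.card * δ := by
  have hn : (0 : ℝ) < F.card := by exact_mod_cast hF.card_pos
  rw [avgSum_norm, mul_pow, sq, coef_mul_self, inv_mul_le_iff₀ hn]
  exact (norm_sum_le_of_orth F w hδ hd ho).trans_eq (by ring)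

/-- The product of two averages. -/
theorem avg_gram {ι : Type*} [DecidableEq ι] {F : Finset ι} (hF : F.Nonempty)
    (w w' : ι → B) (e a : B) {δ R : ℝ} (hδ : 0 ≤ δ)
    (hd : ∀ g ∈ F, ‖(star (w g) * w' g - e) * a‖ ≤ R)
    (ho : ∀ g ∈ F, ∀ h ∈ F, g ≠ h → ‖star (w g) * w' h‖ ≤ δ) :
    ‖(star (avgSum F w) * avgSum F w' - e) * a‖ ≤ R + (F.card : ℝ) * (δ * ‖a‖) := by
  have hn : (0 : ℝ) < F.card := by exact_mod_cast hF.card_pos
  have e1 : (star (avgSum F w) * avgSum F w' - e) * a = (F.card : ℝ)⁻¹ •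
      ∑ g ∈ F, ((star (w g) * w' g - e) * a + ∑ h ∈ F.erase g, star (w g) * w' h * a) := by
    have e2 : star (avgSum F w) * avgSum F w' =
        (F.card : ℝ)⁻¹ • ∑ g ∈ F, (star (w g) * w' g + ∑ h ∈ F.erase g, star (w g) * w' h) := by
      rw [avgSum, avgSum, star_smul, star_trivial, smul_mul_smul_comm, coef_mul_self, star_sum,
        Finset.sum_mul_sum]
      exact congrArg _ (Finset.sum_congr rfl fun g hg => (Finset.add_sum_erase F _ hg).symm)
    simp only [← Finset.sum_mul, ← add_mul, ← smul_mul_assoc]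
    refine congrArg (· * a) ?_
    rw [e2, ← sub_eq_zero]
    simp only [Finset.sum_add_distrib, Finset.sum_sub_distrib, Finset.sum_const, smul_add,
      smul_sub, ← Nat.cast_smul_eq_nsmul ℝ, smul_smul, inv_mul_cancel₀ hn.ne', one_smul]
    abel
  rw [e1, norm_smul, norm_inv, Real.norm_of_nonneg hn.le, inv_mul_le_iff₀ hn]
  refine (norm_sum_le _ _).trans ((Finset.sum_le_sum (g := fun _ => R + (F.card : ℝ) * (δ * ‖a‖))
    fun g hg => ?_).trans_eq (by rw [Finset.sum_const, nsmul_eq_mul]))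
  refine (norm_add_le _ _).trans (add_le_add (hd g hg) ((norm_sum_le _ _).trans ?_))
  refine (Finset.sum_le_sum (g := fun _ => δ * ‖a‖) fun h hh => (norm_mul_le _ _).trans
    (mul_le_mul_of_nonneg_right (ho g hg h (Finset.mem_of_mem_erase hh)
      (Finset.ne_of_mem_erase hh).symm) (norm_nonneg a))).trans ?_
  rw [Finset.sum_const, nsmul_eq_mul]
  exact mul_le_mul_of_nonneg_right
    (Nat.cast_le.2 (Finset.card_le_card (Finset.erase_subset g F))) (by positivity)

/-- An average is almost fixed by a map which almost permutes most of the family. -/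
theorem avg_move {ι : Type*} [DecidableEq ι] {F E₀ : Finset ι} (hF : F.Nonempty)
    (hE : E₀ ⊆ F) (σ : ι → ι) (hinj : Set.InjOn σ E₀) (hσ : ∀ g ∈ E₀, σ g ∈ F) (w : ι → B)
    (θ : B ≃⋆ₐ[ℂ] B) (a : B) {δ R δ' t : ℝ} (hδ : 0 ≤ δ) (hδ' : 0 ≤ δ') (ht : 0 ≤ t)
    (hmove : ∀ g ∈ E₀, ‖(θ (w g) - w (σ g)) * a‖ ≤ δ')
    (hd : ∀ g ∈ F, ‖star (w g) * w g‖ ≤ R)
    (ho : ∀ g ∈ F, ∀ h ∈ F, g ≠ h → ‖star (w g) * w h‖ ≤ δ)
    (hcard : ((F \ E₀).card : ℝ) * (R + F.card * δ) ≤ t ^ 2 * F.card) :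
    ‖(θ (avgSum F w) - avgSum F w) * a‖ ≤ (F.card : ℝ) * δ' + 2 * t * ‖a‖ := by
  set c : ℝ := (Real.sqrt (F.card : ℝ))⁻¹
  have hc : 0 ≤ c := by positivity
  have hσF : E₀.image σ ⊆ F := fun h hh => by
    obtain ⟨g, hg, rfl⟩ := Finset.mem_image.1 hh
    exact hσ g hg
  have e1 : θ (avgSum F w) - avgSum F w = c • ((∑ g ∈ E₀, (θ (w g) - w (σ g))) +
      (θ (∑ g ∈ F \ E₀, w g) - ∑ h ∈ F \ E₀.image σ, w h)) := by
    have a1 : ∑ g ∈ F, w g = (∑ g ∈ F \ E₀, w g) + ∑ g ∈ E₀, w g := (Finset.sum_sdiff hE).symm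
    have a2 : ∑ g ∈ F, w g = (∑ h ∈ F \ E₀.image σ, w h) + ∑ g ∈ E₀, w (σ g) := by
      rw [← Finset.sum_image hinj, Finset.sum_sdiff hσF]
    have a3 : θ (avgSum F w) = c • θ (∑ g ∈ F, w g) := by
      rw [avgSum, ← Complex.coe_smul, map_smul, Complex.coe_smul]
    rw [a3, avgSum, ← smul_sub]
    conv_lhs => rw [a1]; arg 2; arg 2; rw [← a1, a2]
    rw [map_add, map_sum θ _ E₀, Finset.sum_sub_distrib]
    exact congrArg _ (by abel)
  have hb : ∀ E ⊆ F, E.card = (F \ E₀).card → c * ‖∑ g ∈ E, w g‖ ≤ t := by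
    intro E hEF hEc
    have h2 := norm_sum_le_of_orth E w hδ (fun g hg => hd g (hEF hg))
      fun g hg h hh => ho g (hEF hg) h (hEF hh)
    have hn : (0 : ℝ) < F.card := by exact_mod_cast hF.card_pos
    have hEn : (E.card : ℝ) ≤ F.card := Nat.cast_le.2 (Finset.card_le_card hEF)
    have h3 : (c * ‖∑ g ∈ E, w g‖) ^ 2 ≤ t ^ 2 := by
      rw [mul_pow, sq c, coef_mul_self, inv_mul_le_iff₀ hn, mul_comm _ (t ^ 2)]
      refine h2.trans (le_trans ?_ hcard)
      rw [← hEc, mul_add, sq, mul_assoc]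
      exact add_le_add le_rfl
        (mul_le_mul_of_nonneg_left (mul_le_mul_of_nonneg_right hEn hδ) (Nat.cast_nonneg _))
    exact (pow_le_pow_iff_left₀ (by positivity) ht two_ne_zero).1 h3
  have h1 : c * ‖(∑ g ∈ E₀, (θ (w g) - w (σ g))) * a‖ ≤ (F.card : ℝ) * δ' := by
    rw [Finset.sum_mul]
    refine (mul_le_mul_of_nonneg_left ((norm_sum_le _ _).trans (Finset.sum_le_sum hmove)) hc).trans
      ?_
    rw [Finset.sum_const, nsmul_eq_mul, ← mul_assoc]
    refine mul_le_mul_of_nonneg_right (le_trans ?_ (coef_mul_card_le hF)) hδ'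
    exact mul_le_mul_of_nonneg_left (Nat.cast_le.2 (Finset.card_le_card hE)) hc
  have h2 := hb _ Finset.sdiff_subset rfl
  have h3 := hb (F \ E₀.image σ) Finset.sdiff_subset (by
    rw [Finset.card_sdiff_of_subset hσF, Finset.card_sdiff_of_subset hE,
      Finset.card_image_of_injOn hinj])
  have h4 : c * ‖θ (∑ g ∈ F \ E₀, w g) - ∑ h ∈ F \ E₀.image σ, w h‖ ≤ 2 * t := by
    refine (mul_le_mul_of_nonneg_left (norm_sub_le _ _) hc).trans ?_
    rw [SI.norm_aut, mul_add]
    linarith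
  rw [e1, smul_mul_assoc, add_mul, norm_smul, Real.norm_of_nonneg hc]
  refine (mul_le_mul_of_nonneg_left (norm_add_le _ _) hc).trans ?_
  rw [mul_add]
  refine add_le_add h1 ((mul_le_mul_of_nonneg_left (norm_mul_le _ _) hc).trans ?_)
  rw [← mul_assoc]
  exact mul_le_mul_of_nonneg_right h4 (norm_nonneg a)

/-- Averaging almost isometries with orthogonal ranges and orthogonal translates. -/
theorem avg_family {G ι : Type*} [Group G] [DecidableEq G] [DecidableEq ι]
    (β : G →* (B ≃⋆ₐ[ℂ] B)) {F : Finset G} (hF : F.Nonempty) (u : ι → B) {δ t K : ℝ}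
    (hδ : 0 ≤ δ) (ht : 0 ≤ t) (ht1 : t ≤ 1) (hnδ : (F.card : ℝ) * δ = t) (hu : ∀ i, ‖u i‖ ≤ 4)
    (horth : ∀ i j, ∀ g ∈ F, ∀ h ∈ F, g ≠ h → ‖star (u i) * β (g⁻¹ * h) (u j)‖ ≤ δ) :
    (∀ i, ‖avgSum F fun g => β g (u i)‖ ≤ 5) ∧
      ∀ b : B, ‖b‖ ≤ K →
        (∀ g ∈ F, ∀ i, ‖u i * β g⁻¹ b - β g⁻¹ b * u i‖ ≤ δ ∧
          ∀ j, ‖(star (u i) * u j - if i = j then 1 else 0) * β g⁻¹ b‖ ≤ δ) →
        ∀ i,
          ‖(avgSum F fun g => β g (u i)) * b - b * avgSum F fun g => β g (u i)‖ ≤ t ∧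
          (∀ j, ‖(star (avgSum F fun g => β g (u i)) * avgSum F (fun g => β g (u j)) -
            if i = j then 1 else 0) * b‖ ≤ t + t * K) ∧
          ∀ (k : G) (E₀ : Finset G) (σ : G → G), E₀ ⊆ F → Set.InjOn σ E₀ →
            (∀ g ∈ E₀, σ g ∈ F ∧ ‖(β ((σ g)⁻¹ * (k * g)) (u i) - u i) * β (σ g)⁻¹ b‖ ≤ δ) →
            ((F \ E₀).card : ℝ) * (16 + t) ≤ t ^ 2 * F.card →
            ‖(β k (avgSum F fun g => β g (u i)) - avgSum F fun g => β g (u i)) * b‖ ≤
              t + 2 * (t * K) := by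
  have hinv' : ∀ (g : G) (a : B), β g (β g⁻¹ a) = a := fun g a => by
    rw [← StarAlgEquiv.mul_apply, ← map_mul, mul_inv_cancel, map_one]; rfl
  have hcard1 : (1 : ℝ) ≤ F.card := Nat.one_le_cast.2 hF.card_pos
  have hδt : δ ≤ t := hnδ ▸ le_mul_of_one_le_left hδ hcard1
  have hwd : ∀ i, ∀ g ∈ F, ‖star (β g (u i)) * β g (u i)‖ ≤ 16 := fun i g _ => by
    rw [CStarRing.norm_star_mul_self, SI.norm_aut]
    nlinarith [hu i, norm_nonneg (u i)]
  have hworth : ∀ i j, ∀ g ∈ F, ∀ h ∈ F, g ≠ h →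
      ‖star (β g (u i)) * β h (u j)‖ ≤ δ := by
    intro i j g hg h hh hne
    have e1 : star (β g (u i)) * β h (u j) = β g (star (u i) * β (g⁻¹ * h) (u j)) := by
      rw [map_mul (β g), map_star, ← StarAlgEquiv.mul_apply, ← map_mul, mul_inv_cancel_left]
    rw [e1, SI.norm_aut]
    exact horth i j g hg h hh hne
  refine ⟨fun i => ?_, fun b hbK hb i => ⟨?_, fun j => ?_, fun k E₀ σ hE hinj hσ hcard => ?_⟩⟩
  · have h := avg_norm_le hF _ hδ (hwd i) (hworth i i)
    nlinarith [norm_nonneg (avgSum F fun g => β g (u i))]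
  · refine (avgSum_commute hF _ b hδ fun g hg => ?_).trans_eq hnδ
    have e2 : β g (u i) * b - b * β g (u i) = β g (u i * β g⁻¹ b - β g⁻¹ b * u i) := by
      simp only [map_sub, map_mul (β g), hinv']
    rw [e2, SI.norm_aut]
    exact (hb g hg i).1
  · refine (avg_gram hF _ _ _ b hδ (R := δ) (fun g hg => ?_) (hworth i j)).trans ?_
    · have e1 : (star (β g (u i)) * β g (u j) - if i = j then 1 else 0) * b =
          β g ((star (u i) * u j - if i = j then 1 else 0) * β g⁻¹ b) := by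
        rw [map_mul (β g), hinv', map_sub, map_mul (β g), map_star]
        split_ifs <;> simp
      rw [e1, SI.norm_aut]
      exact (hb g hg i).2 j
    · rw [← mul_assoc, hnδ]
      exact add_le_add hδt (mul_le_mul_of_nonneg_left hbK ht)
  · refine (avg_move hF hE σ hinj (fun g hg => (hσ g hg).1) (fun g => β g (u i)) (β k) b hδ hδ ht
      (R := 16) (fun g hg => ?_) (hwd i) (hworth i i) (by rw [hnδ]; exact hcard)).trans ?_
    · have e2 : (β k (β g (u i)) - β (σ g) (u i)) * b =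
          β (σ g) ((β ((σ g)⁻¹ * (k * g)) (u i) - u i) * β (σ g)⁻¹ b) := by
        rw [map_mul (β (σ g)), hinv', map_sub]
        congr 1
        rw [← StarAlgEquiv.mul_apply, ← map_mul, ← StarAlgEquiv.mul_apply, ← map_mul,
          mul_inv_cancel_left]
      rw [e2, SI.norm_aut]
      exact (hσ g hg).2
    · rw [hnδ, mul_assoc]
      nlinarith [mul_le_mul_of_nonneg_left hbK ht]

/-- The products of an almost isometry with two almost isometries below almost orthogonal
elements. -/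
theorem prod_estimates [Nontrivial B] {s a : B} {t f : Fin 2 → B} {δ K : ℝ} (hK : 1 ≤ K) (haK : ‖a‖ ≤ K)
    (hf : ∀ i, IsPos (f i) ∧ ‖f i‖ ≤ 1) (hs : ‖s‖ ≤ 2) (ht : ∀ i, ‖t i‖ ≤ 2)
    (hss : ‖(star s * s - 1) * a‖ ≤ δ) (hsa : ‖s * a - a * s‖ ≤ δ)
    (hta : ∀ i, ‖(star (t i) * t i - 1) * a‖ ≤ δ ∧ ‖t i * a - a * t i‖ ≤ δ)
    (hft : ∀ i, ‖f i * t i - t i‖ ≤ δ) (hff : ∀ i j, i ≠ j → ‖f i * f j * a‖ ≤ δ) (i : Fin 2) :
    ‖s * t i * a - a * (s * t i)‖ ≤ 4 * δ ∧
      ∀ j, ‖(star (s * t i) * (s * t j) - if i = j then 1 else 0) * a‖ ≤ 24 * (K * δ) := by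
  have hδ : 0 ≤ δ := (norm_nonneg _).trans hsa
  have hKδ : δ ≤ K * δ := le_mul_of_one_le_left hδ hK
  constructor
  · rw [show s * t i * a - a * (s * t i) = s * (t i * a - a * t i) + (s * a - a * s) * t i by
      noncomm_ring]
    refine (norm_add_le _ _).trans ?_
    linarith [(norm_mul_le s (t i * a - a * t i)).trans
        (mul_le_mul hs (hta i).2 (norm_nonneg _) two_pos.le),
      (norm_mul_le (s * a - a * s) (t i)).trans (mul_le_mul hsa (ht i) (norm_nonneg _) hδ)]
  intro j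
  have hd5 : ‖star s * s - 1‖ ≤ 5 := by
    refine (norm_sub_le _ _).trans ?_
    rw [CStarRing.norm_star_mul_self, CStarRing.norm_one]
    nlinarith [norm_nonneg s]
  have hti : ‖star (t i)‖ ≤ 2 := by rw [norm_star]; exact ht i
  have e : (star (s * t i) * (s * t j) - if i = j then 1 else 0) * a =
      star (t i) * ((star s * s - 1) * (t j * a - a * t j)) +
      star (t i) * ((star s * s - 1) * a * t j) +
      (star (t i) * t j - if i = j then 1 else 0) * a := by
    rw [star_mul]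
    noncomm_ring
  have hlast : ‖(star (t i) * t j - if i = j then 1 else 0) * a‖ ≤ 10 * (K * δ) := by
    split_ifs with hij
    · subst hij
      linarith [(hta i).1]
    rw [sub_zero]
    have hfi : star (f i) = f i := by
      obtain ⟨y, hy⟩ := (hf i).1
      rw [hy, star_mul, star_star]
    have e' : star (t i) * t j * a = star (t i - f i * t i) * t j * a +
        star (t i) * f i * (t j - f j * t j) * a +
        star (t i) * (f i * f j) * (t j * a - a * t j) + star (t i) * (f i * f j * a) * t j := by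
      rw [star_sub, star_mul, hfi]
      noncomm_ring
    have h1 : ‖star (t i - f i * t i) * t j * a‖ ≤ δ * 2 * K :=
      (norm_mul_le _ _).trans (mul_le_mul ((norm_mul_le _ _).trans (mul_le_mul
        (by rw [norm_star, norm_sub_rev]; exact hft i) (ht j) (norm_nonneg _) hδ)) haK
        (norm_nonneg _) (by linarith))
    have h2 : ‖star (t i) * f i * (t j - f j * t j) * a‖ ≤ 2 * 1 * δ * K :=
      (norm_mul_le _ _).trans (mul_le_mul ((norm_mul_le _ _).trans (mul_le_mul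
        ((norm_mul_le _ _).trans (mul_le_mul hti (hf i).2 (norm_nonneg _) two_pos.le))
        (by rw [norm_sub_rev]; exact hft j) (norm_nonneg _) (by norm_num))) haK
        (norm_nonneg _) (by linarith))
    have hff' : ‖f i * f j‖ ≤ 1 :=
      (norm_mul_le _ _).trans (mul_le_one₀ (hf i).2 (norm_nonneg _) (hf j).2)
    have h3 : ‖star (t i) * (f i * f j) * (t j * a - a * t j)‖ ≤ 2 * 1 * δ :=
      (norm_mul_le _ _).trans (mul_le_mul ((norm_mul_le _ _).trans (mul_le_mul hti hff'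
        (norm_nonneg _) two_pos.le)) (hta j).2 (norm_nonneg _) (by norm_num))
    have h4 : ‖star (t i) * (f i * f j * a) * t j‖ ≤ 2 * δ * 2 :=
      (norm_mul_le _ _).trans (mul_le_mul ((norm_mul_le _ _).trans (mul_le_mul hti (hff i j hij)
        (norm_nonneg _) two_pos.le)) (ht j) (norm_nonneg _) (by linarith))
    rw [e']
    refine (norm_add_le _ _).trans ?_
    refine (add_le_add ((norm_add_le _ _).trans (add_le_add (norm_add_le _ _) le_rfl)) le_rfl).trans ?_
    linarith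
  rw [e]
  refine norm_add₃_le.trans ?_
  have h1 : ‖star (t i) * ((star s * s - 1) * (t j * a - a * t j))‖ ≤ 2 * (5 * δ) :=
    (norm_mul_le _ _).trans (mul_le_mul hti ((norm_mul_le _ _).trans (mul_le_mul hd5 (hta j).2
      (norm_nonneg _) (by norm_num))) (norm_nonneg _) two_pos.le)
  have h2 : ‖star (t i) * ((star s * s - 1) * a * t j)‖ ≤ 2 * (δ * 2) :=
    (norm_mul_le _ _).trans (mul_le_mul hti ((norm_mul_le _ _).trans (mul_le_mul hss (ht j)
      (norm_nonneg _) hδ)) (norm_nonneg _) two_pos.le)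
  linarith

/-- Common test data for finitely many asymptotically fixing automorphisms. -/
theorem exists_fix_dataOn {ι : Type*} (I : Set B) (θ : ι → B ≃⋆ₐ[ℂ] B) (M : Finset (ι × B))
    (hM : ∀ p ∈ M, AsympFixOn I (θ p.1) ∧ p.2 ∈ I) {ε : ℝ} (hε : 0 < ε) :
    ∃ (D : Finset B) (η : ℝ), 0 < η ∧ (∀ d ∈ D, d ∈ I) ∧ ∀ p ∈ M, ∀ z : B, ‖z‖ ≤ 2 →
      (∀ d ∈ D, ‖z * d - d * z‖ ≤ η) → ‖(θ p.1 z - z) * p.2‖ ≤ ε := by
  classical
  induction M using Finset.induction_on with
  | empty => exact ⟨∅, 1, one_pos, by simp, fun p hp => absurd hp (Finset.notMem_empty p)⟩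
  | insert p M hp ih =>
    obtain ⟨D, η, hη, hD, h⟩ := ih fun k hk => hM k (Finset.mem_insert_of_mem hk)
    obtain ⟨hfix, hpI⟩ := hM p (Finset.mem_insert_self p M)
    obtain ⟨D', η', hη', hD', h'⟩ := hfix p.2 hpI ε hε
    refine ⟨D ∪ D', min η η', lt_min hη hη', fun d hd => (Finset.mem_union.1 hd).elim (hD d) (hD' d),
      fun k hk z hz hza => ?_⟩
    rcases Finset.mem_insert.1 hk with rfl | hk
    · exact h' z hz fun a ha => (hza a (Finset.mem_union_right D ha)).trans (min_le_right _ _)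
    · exact h k hk z hz fun a ha => (hza a (Finset.mem_union_left D' ha)).trans (min_le_left _ _)

end Estimates

/-- The asymptotically fixing elements form a subgroup. -/
theorem exists_fix_subgroupOn {A : Type*} [NonUnitalCStarAlgebra A] {G : Type*} [Group G]
    (α : G →* (A ≃⋆ₐ[ℂ] A)) :
    ∃ N : Subgroup G, ∀ g, g ∈ N ↔ AsympFixOn (inrSet A) (extAction α g) := by
  classical
  set θG : G → Unitization ℂ A ≃⋆ₐ[ℂ] Unitization ℂ A := fun g => extAction α g with hθG
  have hθI : ∀ (g : G), ∀ a ∈ inrSet A, θG g a ∈ inrSet A := inv_inrSet α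
  have hinv' : ∀ (g : G) (a : Unitization ℂ A), θG g (θG g⁻¹ a) = a := fun g a => by
    simp only [hθG]
    rw [← StarAlgEquiv.mul_apply, ← map_mul, mul_inv_cancel, map_one]; rfl
  let N : Subgroup G :=
    { carrier := {g | AsympFixOn (inrSet A) (θG g)}
      one_mem' := fun a ha t ht => ⟨∅, 1, one_pos, by simp, fun z _ _ => by
        have e : θG 1 z = z := by simp [hθG]
        rw [e, sub_self, zero_mul, norm_zero]
        exact ht.le⟩
      mul_mem' := fun {g h} hg hh a ha t ht => by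
        obtain ⟨D₁, η₁, hη₁, hD₁, h₁⟩ := hg a ha (t / 2) (half_pos ht)
        obtain ⟨D₂, η₂, hη₂, hD₂, h₂⟩ := hh _ (hθI g⁻¹ a ha) (t / 2) (half_pos ht)
        refine ⟨D₁ ∪ D₂, min η₁ η₂, lt_min hη₁ hη₂,
          fun d hd => (Finset.mem_union.1 hd).elim (hD₁ d) (hD₂ d), fun z hz hza => ?_⟩
        have e1 := h₁ z hz fun d hd =>
          (hza d (Finset.mem_union_left D₂ hd)).trans (min_le_left _ _)
        have e2 := h₂ z hz fun d hd =>
          (hza d (Finset.mem_union_right D₁ hd)).trans (min_le_right _ _)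
        have e : (θG (g * h) z - z) * a =
            θG g ((θG h z - z) * θG g⁻¹ a) + (θG g z - z) * a := by
          have hgh : θG (g * h) z = θG g (θG h z) := by simp [hθG]
          rw [map_mul (θG g), map_sub, hinv', hgh, ← add_mul]
          congr 1
          abel
        rw [e]
        refine (norm_add_le _ _).trans ?_
        rw [SI.norm_aut]
        linarith
      inv_mem' := fun {g} hg a ha t ht => by
        obtain ⟨D₁, η₁, hη₁, hD₁, h₁⟩ := hg _ (hθI g a ha) t ht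
        refine ⟨D₁, η₁, hη₁, hD₁, fun z hz hza => ?_⟩
        calc ‖(θG g⁻¹ z - z) * a‖ = ‖θG g ((θG g⁻¹ z - z) * a)‖ := (SI.norm_aut _ _).symm
          _ = ‖(θG g z - z) * θG g a‖ := by
            rw [map_mul, map_sub, hinv', ← norm_neg, ← neg_mul, neg_sub]
          _ ≤ t := h₁ z hz hza }
  exact ⟨N, fun g => Iff.rfl⟩

end

end Vale.P095.NU.Pure
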